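import Vale.Agent.P073Z.SCH3.Basic

/-!
# Ball filling: a cellular set can be collapsed by a map that is PL off the set
-/

open Set Metric Topology Filter

namespace P073

/-- ambient form of the shrinking move -/
theorem shrink_ambient (hS : SHRINK) (hJ : JB) {C B K U : Set E3} {q : E3} (h : ConBall 3 C B)
    (hK : IsCompact K) (hKC : K ⊆ C \ B) (hq : q ∈ C \ B) (hU : U ∈ 𝓝 q) :
    ∃ Φ : ConHomeo (univ : Set E3) (univ : Set E3), (∀ x, x ∉ C → Φ.toFun x = x) ∧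
      Φ.toFun '' C = C ∧ Φ.toFun '' K ⊆ U := by
  obtain ⟨ψ, K', -, hK'C, hid, hKU, -⟩ := hS h hK hKC hq hU
  obtain ⟨Φ, h1, h2⟩ := ConHomeo.exists_extend_by_id h.isClosed h.locCone ψ (fun x hx => by
    rw [(hJ.ball_open h).2] at hx
    exact hid x ⟨h.1 hx, fun hx' => (hK'C hx').2 hx⟩)
  refine ⟨Φ, h2, ?_, ?_⟩
  · rw [h1.image_eq, ψ.image_eq]
  · rw [(h1.mono (hKC.trans sdiff_subset)).image_eq]; exact hKU

/-- a stage of the collapse -/
structure CollSt (A : Set E3) where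
  /-- the map so far -/
  Φ : ConHomeo (univ : Set E3) (univ : Set E3)
  /-- the current ball -/
  D : Set E3
  /-- its boundary -/
  B : Set E3
  cb : ConBall 3 D B
  sub : A ⊆ D \ B

theorem CollSt.step (hS : SHRINK) (hJ : JB) {A : Set E3} (hA : IsCompact A)
    (hcell : ∀ U, IsOpen U → A ⊆ U → ∃ D B, ConBall 3 D B ∧ A ⊆ D \ B ∧ D ⊆ U)
    (s : CollSt A) {q : E3} (hq : q ∈ s.Φ.toFun '' (s.D \ s.B)) {ε : ℝ} (hε : 0 < ε) :
    ∃ s' : CollSt A, s'.D ⊆ s.D ∩ thickening ε A ∧ (∀ x, x ∉ s.D → s'.Φ.toFun x = s.Φ.toFun x) ∧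
      s'.Φ.toFun '' s.D = s.Φ.toFun '' s.D ∧ s'.Φ.toFun '' s'.D ⊆ ball q ε := by
  obtain ⟨D, B, hD, hAD, hDU⟩ := hcell ((s.D \ s.B) ∩ thickening ε A)
    ((hJ.ball_open s.cb).1.inter isOpen_thickening)
    (subset_inter s.sub (self_subset_thickening hε A))
  have himg : s.Φ.toFun '' (s.D \ s.B) = s.Φ.toFun '' s.D \ s.Φ.toFun '' s.B :=
    image_sdiff s.Φ.injective _ _
  obtain ⟨Ψ, h1, h2, h3⟩ := shrink_ambient hS hJ (K := s.Φ.toFun '' D) (q := q)
    (s.cb.image s.Φ (subset_univ _)) (hD.isCompact.image s.Φ.continuous)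
    (himg ▸ image_mono (hDU.trans inter_subset_left)) (himg ▸ hq) (ball_mem_nhds q hε)
  refine ⟨⟨s.Φ.trans Ψ, D, B, hD, hAD⟩, fun x hx => ⟨(hDU hx).1.1, (hDU hx).2⟩, ?_, ?_, ?_⟩
  · intro x hx
    exact h1 _ fun h => hx (s.Φ.apply_mem_image_iff.1 h)
  · show (Ψ.toFun ∘ s.Φ.toFun) '' s.D = _
    rw [image_comp, h2]
  · show (Ψ.toFun ∘ s.Φ.toFun) '' D ⊆ _
    rw [image_comp]; exact h3

theorem exists_collapse (hS : SHRINK) (hJ : JB) {A O N : Set E3} (hA : IsCompact A)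
    (hne : A.Nonempty) (hO : IsOpen O) (hAO : A ⊆ O)
    (hcell : ∀ U, IsOpen U → A ⊆ U → ∃ D B, ConBall 3 D B ∧ A ⊆ D \ B ∧ D ⊆ U)
    (hN : IsClosed N) (hNi : interior N = ∅) :
    ∃ (Φ : E3 → E3) (a : E3), Continuous Φ ∧ a ∉ N ∧ (∀ x, Φ x = a ↔ x ∈ A) ∧ InjOn Φ Aᶜ ∧
      ConicalOn Φ Aᶜ ∧ Function.Surjective Φ ∧ ∀ x, x ∉ O → Φ x = x := by
  classical
  obtain ⟨a₀, ha₀⟩ := hne
  obtain ⟨D₀, B₀, hD₀, hAD₀, hD₀O⟩ := hcell O hO hAO
  -- a point off `N`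
  obtain ⟨q₀, hq₀, hq₀N⟩ : ∃ q ∈ D₀ \ B₀, q ∉ N := by
    by_contra hcon
    push Not at hcon
    have : a₀ ∈ interior N := interior_maximal hcon (hJ.ball_open hD₀).1 (hAD₀ ha₀)
    rw [hNi] at this
    exact this
  obtain ⟨ε₀, hε₀, hball⟩ := Metric.isOpen_iff.1 hN.isOpen_compl q₀ hq₀N
  let sI : CollSt A := ⟨ConHomeo.refl (IsOpen.conicalSet isOpen_univ), D₀, B₀, hD₀, hAD₀⟩
  obtain ⟨s₀, h01, h02, -, h04⟩ := CollSt.step hS hJ hA hcell sI (q := q₀) ⟨q₀, hq₀, rfl⟩ hε₀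
  have hstep : ∀ (n : ℕ) (s : CollSt A), ∃ s' : CollSt A,
      s'.D ⊆ s.D ∩ thickening (1 / ((n:ℝ) + 1)) A ∧
      (∀ x, x ∉ s.D → s'.Φ.toFun x = s.Φ.toFun x) ∧
      s'.Φ.toFun '' s.D = s.Φ.toFun '' s.D ∧
      s'.Φ.toFun '' s'.D ⊆ ball (s.Φ.toFun a₀) (1 / ((n:ℝ) + 1)) := fun n s =>
    CollSt.step hS hJ hA hcell s ⟨a₀, s.sub ha₀, rfl⟩ Nat.one_div_pos_of_nat
  choose nx hnx using hstep
  let s : ℕ → CollSt A := fun n => Nat.rec s₀ (fun n s => nx n s) n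
  have hs : ∀ n, s (n + 1) = nx n (s n) := fun n => rfl
  have hD : ∀ n, (s (n + 1)).D ⊆ (s n).D := fun n => (hnx n (s n)).1.trans inter_subset_left
  have hDm : ∀ {i j}, i ≤ j → (s j).D ⊆ (s i).D := fun hij =>
    antitone_nat_of_succ_le (f := fun n => (s n).D) hD hij
  -- stabilisation
  have hst : ∀ i x, x ∉ (s i).D → ∀ j, i ≤ j → (s j).Φ.toFun x = (s i).Φ.toFun x := by
    intro i x hx j hij
    induction j, hij using Nat.le_induction with
    | base => rfl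
    | succ j hij ih =>
      rw [← ih]
      exact (hnx j (s j)).2.1 x fun h => hx (hDm hij h)
  have himg : ∀ i j, i ≤ j → (s j).Φ.toFun '' (s i).D = (s i).Φ.toFun '' (s i).D := by
    intro i j hij
    rw [← compl_inj_iff, ← (s j).Φ.image_compl, ← (s i).Φ.image_compl]
    exact image_congr fun x hx => hst i x hx j hij
  have hout : ∀ x, x ∉ A → ∃ i, x ∉ (s i).D := by
    intro x hx
    obtain ⟨ε, hε, hb⟩ := Metric.isOpen_iff.1 hA.isClosed.isOpen_compl x hx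
    obtain ⟨n, hn⟩ := exists_nat_one_div_lt hε
    refine ⟨n + 1, fun h => ?_⟩
    obtain ⟨z, hz, hxz⟩ := mem_thickening_iff.1 ((hnx n (s n)).1 h).2
    exact hb (show z ∈ ball x ε from by rw [mem_ball, dist_comm]; exact hxz.trans hn) hz
  -- the limit point
  let Z : ℕ → Set E3 := fun n => (s n).Φ.toFun '' (s n).D
  have hZ : ∀ n, Z (n + 1) ⊆ Z n := fun n => by
    show _ ⊆ (s n).Φ.toFun '' (s n).D
    rw [← himg n (n + 1) (Nat.le_succ n)]
    exact image_mono (hD n)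
  have hZm : ∀ {i j}, i ≤ j → Z j ⊆ Z i := fun hij => antitone_nat_of_succ_le (f := Z) hZ hij
  have hZc : ∀ n, IsCompact (Z n) := fun n => (s n).cb.isCompact.image (s n).Φ.continuous
  obtain ⟨a, ha⟩ := IsCompact.nonempty_iInter_of_sequence_nonempty_isCompact_isClosed Z hZ
    (fun n => ⟨_, a₀, ((s n).sub ha₀).1, rfl⟩) (hZc 0) fun n => (hZc n).isClosed
  rw [mem_iInter] at ha
  have hsmall : ∀ ε > 0, ∃ n, Z n ⊆ ball a ε := by
    intro ε hε
    obtain ⟨n, hn⟩ := exists_nat_one_div_lt (half_pos hε)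
    refine ⟨n + 1, fun y hy => ?_⟩
    have h1 := (hnx n (s n)).2.2.2 hy
    have h2 := (hnx n (s n)).2.2.2 (ha (n + 1))
    rw [mem_ball] at h1 h2 ⊢
    linarith [dist_triangle_right y a ((s n).Φ.toFun a₀)]
  let Φ : E3 → E3 := fun x => if hx : x ∈ A then a else (s (hout x hx).choose).Φ.toFun x
  have hΦA : ∀ x ∈ A, Φ x = a := fun x hx => dif_pos hx
  have hΦ : ∀ i x, x ∉ (s i).D → Φ x = (s i).Φ.toFun x := by
    intro i x hx
    have hxA : x ∉ A := fun h => hx ((s i).sub h).1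
    have h1 : Φ x = (s (hout x hxA).choose).Φ.toFun x := dif_neg hxA
    rw [h1, ← hst _ x (hout x hxA).choose_spec (max i (hout x hxA).choose) (le_max_right _ _),
      hst i x hx _ (le_max_left _ _)]
  have hΦZ : ∀ i, MapsTo Φ (s i).D (Z i) := by
    intro i x hx
    by_cases hxA : x ∈ A
    · rw [hΦA x hxA]; exact ha i
    · obtain ⟨j, hj⟩ := hout x hxA
      rw [hΦ (max i j) x fun h => hj (hDm (le_max_right i j) h)]
      show _ ∈ (s i).Φ.toFun '' (s i).D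
      rw [← himg i (max i j) (le_max_left i j)]
      exact mem_image_of_mem _ hx
  have hev : ∀ x, x ∉ A → ∃ i, x ∉ (s i).D ∧ ∀ᶠ y in 𝓝 x, Φ y = (s i).Φ.toFun y := by
    intro x hx
    obtain ⟨i, hi⟩ := hout x hx
    refine ⟨i, hi, ?_⟩
    filter_upwards [(s i).cb.isClosed.isOpen_compl.mem_nhds hi] with y hy using hΦ i y hy
  have hne : ∀ x, x ∉ A → Φ x ≠ a := by
    intro x hx h
    obtain ⟨i, hi⟩ := hout x hx
    have := ha i
    rw [← h, hΦ i x hi] at this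
    exact hi ((s i).Φ.apply_mem_image_iff.1 this)
  refine ⟨Φ, a, ?_, ?_, ?_, ?_, ?_, ?_, ?_⟩
  · rw [continuous_iff_continuousAt]
    intro x
    by_cases hx : x ∈ A
    · rw [ContinuousAt, hΦA x hx, Metric.tendsto_nhds]
      intro ε hε
      obtain ⟨n, hn⟩ := hsmall ε hε
      filter_upwards [(hJ.ball_open (s n).cb).1.mem_nhds ((s n).sub hx)] with y hy
      exact hn (hΦZ n hy.1)
    · obtain ⟨i, -, hi⟩ := hev x hx
      exact (s i).Φ.continuous.continuousAt.congr (hi.mono fun y hy => hy.symm)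
  · exact hball (h04 (ha 0))
  · intro x
    exact ⟨fun h => by_contra fun hx => hne x hx h, hΦA x⟩
  · intro x hx y hy hxy
    obtain ⟨i, hi⟩ := hout x hx
    obtain ⟨j, hj⟩ := hout y hy
    rw [hΦ (max i j) x fun h => hi (hDm (le_max_left i j) h),
      hΦ (max i j) y fun h => hj (hDm (le_max_right i j) h)] at hxy
    exact (s _).Φ.injective hxy
  · intro x hx
    obtain ⟨i, hi, hi'⟩ := hev x hx
    refine ((s i).Φ.conical x (mem_univ x)).congr_nhds ?_ (hi'.mono fun y hy _ => hy) (hΦ i x hi)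
    filter_upwards [hA.isClosed.isOpen_compl.mem_nhds hx] with y hy
    exact ⟨fun _ => mem_univ y, fun _ => hy⟩
  · intro y
    by_cases hy : y = a
    · exact ⟨a₀, by rw [hy, hΦA a₀ ha₀]⟩
    · obtain ⟨n, hn⟩ := hsmall (dist y a) (dist_pos.2 hy)
      have h1 : (s n).Φ.invFun y ∉ (s n).D := fun h => by
        have : y ∈ Z n := ⟨_, h, (s n).Φ.apply_inv y⟩
        exact lt_irrefl _ (mem_ball.1 (hn this))
      exact ⟨_, by rw [hΦ n _ h1, (s n).Φ.apply_inv]⟩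
  · intro x hx
    have h1 : x ∉ D₀ := fun h => hx (hD₀O h)
    rw [hΦ 0 x fun h => h1 (h01 h).1]
    exact h02 x h1

end P073
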