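import Vale.Agent.P073Z.Sk1

/-!
# Ball filling: maps that collapse one compact set
-/

open Set Metric Topology Filter

namespace P073

section general

variable {E F : Type} [NormedAddCommGroup E] [NormedSpace ℝ E]
  [NormedAddCommGroup F] [NormedSpace ℝ F]

/-- continuity descends along a continuous surjection from a compact set -/
theorem continuousOn_of_comp_eq {S T U : Type} [TopologicalSpace S] [TopologicalSpace T]
    [T2Space T] [TopologicalSpace U] {W : Set S} {C : Set T} {f : S → T} {Φ : S → U} {h : T → U}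
    (hW : IsCompact W) (hf : ContinuousOn f W) (hC : C ⊆ f '' W) (hΦ : ContinuousOn Φ W)
    (he : ∀ y ∈ W, h (f y) = Φ y) : ContinuousOn h C := by
  rw [continuousOn_iff_isClosed]
  intro t ht
  obtain ⟨u, hu, hu'⟩ := (continuousOn_iff_isClosed.1 hΦ) t ht
  refine ⟨f '' (u ∩ W), ((hW.inter_left hu).image_of_continuousOn
    (hf.mono inter_subset_right)).isClosed, ?_⟩
  ext x
  constructor
  · rintro ⟨hx, hxC⟩
    obtain ⟨y, hy, rfl⟩ := hC hxC
    refine ⟨⟨y, ?_, rfl⟩, hxC⟩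
    rw [← hu']
    refine ⟨?_, hy⟩
    show Φ y ∈ t
    rw [← he y hy]; exact hx
  · rintro ⟨⟨y, hy, rfl⟩, hxC⟩
    rw [← hu'] at hy
    refine ⟨?_, hxC⟩
    show h (f y) ∈ t
    rw [he y hy.2]; exact hy.1

/-- a map of a compact set that collapses exactly `A` is a homeomorphism off `A` -/
theorem exists_conHomeo_collapse {D A : Set E} {h : E → F} {a : F} (hD : IsCompact D)
    (hc : ContinuousOn h D) (ha : ∀ x ∈ D, h x = a ↔ x ∈ A) (hinj : InjOn h (D \ A))
    (hcon : ConicalOn h (D \ A)) :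
    ∃ H : ConHomeo (D \ A) (h '' D \ {a}), H.toFun = h := by
  classical
  have hbij : BijOn h (D \ A) (h '' D \ {a}) := by
    refine ⟨fun x hx => ⟨mem_image_of_mem _ hx.1, fun h0 => hx.2 ((ha x hx.1).1 h0)⟩, hinj, ?_⟩
    rintro _ ⟨⟨x, hx, rfl⟩, h0⟩
    exact ⟨x, ⟨hx, fun hA => h0 ((ha x hx).2 hA)⟩, rfl⟩
  refine ⟨
    { toFun := h
      invFun := Function.invFunOn h (D \ A)
      mapsTo := hbij.mapsTo
      mapsTo_inv := hbij.surjOn.mapsTo_invFunOn
      left_inv := hbij.injOn.leftInvOn_invFunOn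
      right_inv := hbij.surjOn.rightInvOn_invFunOn
      cont := hc.mono sdiff_subset
      cont_inv := ?_
      conical := hcon }, rfl⟩
  rw [continuousOn_iff_isClosed]
  intro t ht
  refine ⟨h '' (t ∩ D), ((hD.inter_left ht).image_of_continuousOn
    (hc.mono inter_subset_right)).isClosed, ?_⟩
  ext y
  constructor
  · rintro ⟨hy, hyY⟩
    exact ⟨⟨Function.invFunOn h (D \ A) y, ⟨hy, (hbij.surjOn.mapsTo_invFunOn hyY).1⟩,
      hbij.surjOn.rightInvOn_invFunOn hyY⟩, hyY⟩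
  · rintro ⟨⟨x, ⟨hxt, hxD⟩, rfl⟩, hyY⟩
    refine ⟨?_, hyY⟩
    show Function.invFunOn h (D \ A) (h x) ∈ t
    rw [hbij.injOn.leftInvOn_invFunOn ⟨hxD, fun hA => hyY.2 ((ha x hxD).2 hA)⟩]
    exact hxt

/-- the only inverse set of a map of a ball into a ball is cellular -/
theorem cell_one (hE : EMB) {n m : ℕ} {D B A U : Set E} {Q BQ : Set F} {h : E → F} {a : F}
    (hD : ConBall n D B) (hA : IsClosed A) (hAD : A ⊆ D \ B) (hQ : ConBall m Q BQ)
    (ha : a ∈ Q \ BQ) (hc : ContinuousOn h D) (hm : MapsTo h D Q)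
    (hfib : ∀ x ∈ D, h x = a ↔ x ∈ A) (hinj : InjOn h (D \ A)) (hcon : ConicalOn h (D \ A))
    (hn : h '' D ∈ 𝓝 a) (hU : IsOpen U) (hAU : A ⊆ U) :
    ∃ D' B', ConBall n D' B' ∧ A ⊆ D' \ B' ∧ D' ⊆ D ∩ U := by
  classical
  obtain ⟨H, hH⟩ := exists_conHomeo_collapse hD.isCompact hc hfib hinj hcon
  have hW : h '' (D ∩ U) ∈ 𝓝 a := by
    have h1 : IsClosed (h '' (D \ U)) := ((hD.isCompact.diff hU).image_of_continuousOn
      (hc.mono sdiff_subset)).isClosed
    have h2 : a ∉ h '' (D \ U) := by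
      rintro ⟨x, hx, hxa⟩
      exact hx.2 (hAU ((hfib x hx.1).1 hxa))
    filter_upwards [hn, h1.isOpen_compl.mem_nhds h2] with y hy hy'
    obtain ⟨x, hx, rfl⟩ := hy
    by_cases hxU : x ∈ U
    · exact ⟨x, ⟨hx, hxU⟩, rfl⟩
    · exact absurd ⟨x, ⟨hx, hxU⟩, rfl⟩ hy'
  obtain ⟨Y, σ, hY, hσ⟩ := hE hQ ha hW
  have hσa : σ.toFun a = a := hσ.self_of_nhdsWithin ha.1
  have key : ∀ x ∈ D \ A, ∃ u ∈ (D \ A) ∩ U, h u = σ.toFun (h x) := by
    intro x hx
    obtain ⟨u, hu, hue⟩ := (hY (σ.mapsTo (hm hx.1))).2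
    refine ⟨u, ⟨⟨hu.1, fun huA => hx.2 ?_⟩, hu.2⟩, hue⟩
    rw [(hfib u hu.1).2 huA, ← hσa] at hue
    exact (hfib x hx.1).1 (σ.injOn ha.1 (hm hx.1) hue).symm
  have hmap : MapsTo (σ.toFun ∘ h) (D \ A) (h '' D \ {a}) := by
    intro x hx
    obtain ⟨u, hu, hue⟩ := key x hx
    have := H.mapsTo hu.1
    rw [hH, hue] at this
    exact this
  have hinvh : ∀ u ∈ D \ A, H.invFun (h u) = u := fun u hu => by
    have := H.left_inv hu
    rwa [hH] at this
  let k : E → E := fun x => if x ∈ A then x else H.invFun (σ.toFun (h x))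
  have kA : ∀ x ∈ A, k x = x := fun x hx => if_pos hx
  have kN : ∀ x, x ∉ A → k x = H.invFun (σ.toFun (h x)) := fun x hx => if_neg hx
  have kmem : ∀ x ∈ D \ A, k x ∈ (D \ A) ∩ U := by
    intro x hx
    obtain ⟨u, hu, hue⟩ := key x hx
    rw [kN x hx.2, ← hue, hinvh u hu.1]
    exact hu
  have kid : ∀ x ∈ A, ∀ᶠ y in 𝓝[D] x, k y = y := by
    intro x hx
    have hxD := (hAD hx).1
    have h1 : Tendsto h (𝓝[D] x) (𝓝[Q] a) := by
      rw [← (hfib x hxD).2 hx]
      exact (hc x hxD).tendsto_nhdsWithin hm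
    filter_upwards [h1.eventually hσ, self_mem_nhdsWithin] with y hy hyD
    by_cases hyA : y ∈ A
    · exact kA y hyA
    · rw [kN y hyA, hy, hinvh y ⟨hyD, hyA⟩]
  have hcσ : ContinuousOn (σ.toFun ∘ h) (D \ A) :=
    σ.cont.comp (hc.mono sdiff_subset) (hm.mono_left sdiff_subset)
  have kc : ContinuousOn k D := by
    intro x hx
    by_cases hxA : x ∈ A
    · exact continuousWithinAt_id.congr_of_eventuallyEq (kid x hxA) (kA x hxA)
    · have h1 : ContinuousOn k (D \ A) :=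
        (H.cont_inv.comp hcσ hmap).congr fun y hy => kN y hy.2
      exact (continuousWithinAt_inter (hA.isOpen_compl.mem_nhds hxA)).1 (h1 x ⟨hx, hxA⟩)
  have kcon : ConicalOn k D := by
    intro x hx
    by_cases hxA : x ∈ A
    · exact (conicalOn_id hD.conicalSet x hx).congr_nhds (Eventually.of_forall fun _ => Iff.rfl)
        (eventually_nhdsWithin_iff.1 (kid x hxA)) (kA x hxA)
    · have h1 : ConicalOn k (D \ A) :=
        (H.conical_inv.comp (σ.conical.comp hcon (hm.mono_left sdiff_subset)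
          (hc.mono sdiff_subset)) hmap hcσ).congr fun y hy => kN y hy.2
      refine (h1 x ⟨hx, hxA⟩).congr_nhds ?_ (Eventually.of_forall fun _ _ => rfl) rfl
      filter_upwards [hA.isOpen_compl.mem_nhds hxA] with y hy
      exact ⟨fun h => ⟨h, hy⟩, fun h => h.1⟩
  have kinj : InjOn k D := by
    intro x hx y hy hxy
    by_cases hxA : x ∈ A <;> by_cases hyA : y ∈ A
    · rwa [kA x hxA, kA y hyA] at hxy
    · rw [kA x hxA] at hxy
      exact absurd (hxy ▸ hxA) (kmem y ⟨hy, hyA⟩).1.2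
    · rw [kA y hyA] at hxy
      exact absurd (hxy ▸ hyA) (kmem x ⟨hx, hxA⟩).1.2
    · rw [kN x hxA, kN y hyA] at hxy
      have h1 := H.symm.injOn (hmap ⟨hx, hxA⟩) (hmap ⟨hy, hyA⟩) hxy
      exact hinj ⟨hx, hxA⟩ ⟨hy, hyA⟩ (σ.injOn (hm hx) (hm hy) h1)
  let K := ConHomeo.ofCompact hD.isCompact k kc kinj kcon rfl
  have hK : K.toFun = k := ConHomeo.ofCompact_toFun _ _ _ _ _ _
  refine ⟨K.toFun '' D, K.toFun '' B, hD.image K Subset.rfl, ?_, ?_⟩
  · rw [hK]
    intro x hx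
    refine ⟨⟨x, (hAD hx).1, kA x hx⟩, ?_⟩
    rintro ⟨y, hy, hyx⟩
    rw [← kA x hx] at hyx
    exact (hAD hx).2 (kinj (hD.1 hy) (hAD hx).1 hyx ▸ hy)
  · rw [hK]
    rintro _ ⟨x, hx, rfl⟩
    by_cases hxA : x ∈ A
    · rw [kA x hxA]; exact ⟨hx, hAU hxA⟩
    · exact ⟨(kmem x ⟨hx, hxA⟩).1.1, (kmem x ⟨hx, hxA⟩).2⟩

end general

theorem locCone_closedBall_at {n : ℕ} (c : Fin n → ℝ) (r : ℝ) : LocCone (closedBall c r) := by
  rcases lt_or_ge r 0 with hr | hr
  · rw [closedBall_eq_empty.2 hr]; exact locCone_empty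
  · have : closedBall c r = Icc (fun i => c i - r) (fun i => c i + r) := by
      ext x
      rw [mem_closedBall, dist_pi_le_iff hr]
      simp only [mem_Icc, Pi.le_def, Real.dist_eq, abs_le, ← forall_and]
      exact forall_congr' fun i => ⟨fun h => ⟨by linarith [h.1], by linarith [h.2]⟩,
        fun h => ⟨by linarith [h.1], by linarith [h.2]⟩⟩
    rw [this]; exact locCone_Icc_pi _ _

theorem locCone_ball_at {n : ℕ} (c : Fin n → ℝ) {r : ℝ} (hr : r ≠ 0) : LocCone (ball c r) := by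
  rw [← interior_closedBall c hr]
  exact (locCone_closedBall_at c r).interior

/-- cubes are conical balls -/
theorem conBall_closedBall_at {n : ℕ} (c : Fin n → ℝ) {r : ℝ} (hr : 0 < r) :
    ConBall n (closedBall c r) (sphere c r) := by
  have hn : ∀ x : Fin n → ℝ, ‖r⁻¹ • (x - c)‖ = r⁻¹ * dist x c := fun x => by
    rw [norm_smul, dist_eq_norm, Real.norm_of_nonneg (inv_nonneg.2 hr.le)]
  have hn' : ∀ y : Fin n → ℝ, dist (c + r • y) c = r * ‖y‖ := fun y => by
    rw [dist_eq_norm, add_sub_cancel_left, norm_smul, Real.norm_of_nonneg hr.le]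
  have hX := (locCone_closedBall_at c r).conicalSet
  refine ⟨sphere_subset_closedBall,
    { toFun := fun x => r⁻¹ • (x - c)
      invFun := fun y => c + r • y
      mapsTo := fun x hx => ?_
      mapsTo_inv := fun y hy => ?_
      left_inv := fun x _ => by simp [smul_smul, mul_inv_cancel₀ hr.ne']
      right_inv := fun x _ => by simp [smul_smul, inv_mul_cancel₀ hr.ne']
      cont := by fun_prop
      cont_inv := by fun_prop
      conical := ((conicalOn_id hX).sub (conicalOn_const c hX)).const_smul _ }, ?_⟩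
  · rw [mem_closedBall_zero_iff, hn, inv_mul_le_iff₀ hr, mul_one]
    exact hx
  · rw [mem_closedBall_zero_iff] at hy
    rw [mem_closedBall, hn']
    nlinarith
  · ext y
    constructor
    · rintro ⟨x, hx, rfl⟩
      rw [mem_sphere_zero_iff_norm]
      show ‖r⁻¹ • (x - c)‖ = 1
      rw [hn, mem_sphere.1 hx, inv_mul_cancel₀ hr.ne']
    · intro hy
      refine ⟨c + r • y, ?_, ?_⟩
      · rw [mem_sphere, hn', mem_sphere_zero_iff_norm.1 hy, mul_one]
      · show r⁻¹ • (c + r • y - c) = y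
        simp [smul_smul, inv_mul_cancel₀ hr.ne']

/-- balls in space: the open ball is open and the boundary is the frontier -/
theorem JB.ball_open (hJ : JB) {C B : Set E3} (h : ConBall 3 C B) :
    IsOpen (C \ B) ∧ frontier C = B := by
  obtain ⟨h1, -, -, -, h5, -⟩ := hJ.1 h.conSphere
  rw [hJ.2 h] at h1 h5
  rw [union_sdiff_cancel h.1, frontier_compl] at h5
  exact ⟨h1, h5⟩

end P073
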