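import Vale.Agent.P073Z.SCH3.Push

/-!
# Ball filling: the core is cellular
-/

open Set Metric Topology Filter

namespace P073

theorem cellular_of_push (hP : PUNCT) (hE : EMB) {W A U : Set E3} {c a : E3} {r r' : ℝ}
    {h : E3 → E3} (hW : IsCompact W) (hA : IsCompact A) (hAW : A ⊆ W) (hne : A.Nonempty)
    (hr' : 0 < r') (hrr : r' < r) (hdis : Disjoint (closedBall c r) A)
    (hc : ContinuousOn h (ball c r)ᶜ) (hcon : ConicalOn h ((ball c r)ᶜ \ A))
    (hinj : InjOn h ((ball c r)ᶜ \ A)) (hfib : ∀ y ∈ (ball c r)ᶜ, h y = a ↔ y ∈ A)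
    (hfar : ∀ y ∈ (ball c r)ᶜ, r' < dist (h y) c) (hid : ∀ y, y ∉ W → h y = y)
    (hm : MapsTo h (W \ ball c r) W) (hn : h '' (W \ ball c r) ∈ 𝓝 a)
    (hU : IsOpen U) (hAU : A ⊆ U) : ∃ D B, ConBall 3 D B ∧ A ⊆ D \ B ∧ D ⊆ U := by
  classical
  obtain ⟨R, hRr, hWR⟩ := hW.isBounded.subset_ball_lt r c
  obtain ⟨J, hJi, hJd⟩ := exists_shell_inversion hP c hr' (hrr.trans hRr)
  have hJJ : ∀ x ∈ shellAt c r' R, J.toFun (J.toFun x) = x := fun x hx => by
    have := J.left_inv hx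
    rwa [hJi] at this
  have hZ : ∀ y ∈ shellAt c r R, y ∈ (ball c r)ᶜ := fun y hy hb => absurd hy.1 (not_le.2 hb)
  have hZS : shellAt c r R ⊆ shellAt c r' R := fun y hy => ⟨hrr.le.trans hy.1, hy.2⟩
  have hhS : MapsTo h (shellAt c r R) (shellAt c r' R) := by
    intro y hy
    refine ⟨(hfar y (hZ y hy)).le, ?_⟩
    by_cases hyW : y ∈ W
    · exact (mem_ball.1 (hWR (hm ⟨hyW, hZ y hy⟩))).le
    · rw [hid y hyW]; exact hy.2
  have hAd : ∀ y ∈ A, r < dist y c ∧ dist y c < R := fun y hy =>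
    ⟨not_le.1 fun hb => disjoint_left.1 hdis hb hy, hWR (hAW hy)⟩
  have hAZ : A ⊆ shellAt c r R := fun y hy => ⟨(hAd y hy).1.le, (hAd y hy).2.le⟩
  obtain ⟨a₀, ha₀⟩ := hne
  have haa : h a₀ = a := (hfib a₀ (hZ _ (hAZ ha₀))).2 ha₀
  have ha1 : r' < dist a c := haa ▸ hfar a₀ (hZ _ (hAZ ha₀))
  have ha2 : dist a c < R := haa ▸ hWR (hm ⟨hAW ha₀, hZ _ (hAZ ha₀)⟩)
  have haS : a ∈ shellAt c r' R := ⟨ha1.le, ha2.le⟩
  -- the picture after the inversion
  set ρ := R + r' - r with hρ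
  have hρ0 : r' < ρ := by rw [hρ]; linarith
  have hS1 : shellAt c r' ρ ⊆ shellAt c r' R := fun x hx => ⟨hx.1, hx.2.trans (by linarith)⟩
  have hJ1 : MapsTo J.toFun (shellAt c r' ρ) (shellAt c r R) := fun x hx => by
    constructor
    · rw [hJd x (hS1 hx)]; linarith [hx.2]
    · rw [hJd x (hS1 hx)]; linarith [hx.1]
  have hJ2 : MapsTo J.toFun (shellAt c r R) (shellAt c r' ρ) := fun x hx => by
    constructor
    · rw [hJd x (hZS hx)]; linarith [hx.2]
    · rw [hJd x (hZS hx)]; linarith [hx.1]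
  have hcov : closedBall c ρ = closedBall c r' ∪ shellAt c r' ρ := by
    ext x
    constructor
    · intro hx
      rcases le_total (dist x c) r' with h1 | h1
      · exact Or.inl h1
      · exact Or.inr ⟨h1, hx⟩
    · rintro (hx | hx)
      · exact closedBall_subset_closedBall hρ0.le hx
      · exact hx.2
  let k : E3 → E3 := fun x => if x ∈ closedBall c r' then x else J.toFun (h (J.toFun x))
  have k1 : ∀ x ∈ closedBall c r', k x = x := fun x hx => if_pos hx
  have k2 : ∀ x ∈ shellAt c r' ρ, k x = J.toFun (h (J.toFun x)) := by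
    intro x hx
    by_cases hx' : x ∈ closedBall c r'
    · have h1 : dist x c = r' := le_antisymm hx' hx.1
      have h2 : J.toFun x ∉ W := fun hw => by
        have := mem_ball.1 (hWR hw)
        rw [hJd x (hS1 hx), h1] at this
        linarith
      rw [k1 x hx', hid _ h2, hJJ x (hS1 hx)]
    · exact if_neg hx'
  have hJA : ∀ x ∈ shellAt c r' R, x ∈ J.toFun '' A ↔ J.toFun x ∈ A := fun x hx =>
    ⟨by rintro ⟨y, hy, rfl⟩; rw [hJJ y (hZS (hAZ hy))]; exact hy, fun hx' => ⟨_, hx', hJJ x hx⟩⟩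
  have hJAd : ∀ x ∈ J.toFun '' A, r' < dist x c ∧ dist x c < ρ := by
    rintro _ ⟨y, hy, rfl⟩
    rw [hJd y (hZS (hAZ hy))]
    constructor <;> linarith [(hAd y hy).1, (hAd y hy).2]
  have hJAc : IsCompact (J.toFun '' A) := hA.image_of_continuousOn (J.cont.mono (hAZ.trans hZS))
  have hJa1 : r' < dist (J.toFun a) c := by rw [hJd a haS]; linarith
  have hJa2 : dist (J.toFun a) c < R := by rw [hJd a haS]; linarith
  have hc1 : ContinuousOn (h ∘ J.toFun) (shellAt c r' ρ) :=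
    hc.comp (J.cont.mono hS1) fun x hx => hZ _ (hJ1 hx)
  have hm1 : MapsTo (h ∘ J.toFun) (shellAt c r' ρ) (shellAt c r' R) := hhS.comp hJ1
  -- points of the shell part that land in the small cube are fixed
  have kfix : ∀ x ∈ shellAt c r' ρ, k x ∈ closedBall c r' → k x = x := by
    intro x hx hk
    have h1 : R ≤ dist (h (J.toFun x)) c := by
      have := mem_closedBall.1 hk
      rw [k2 x hx, hJd (h (J.toFun x)) (hm1 hx)] at this
      linarith
    have h2 : J.toFun x ∉ W := fun hw =>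
      absurd (hWR (hm ⟨hw, hZ _ (hJ1 hx)⟩)) (not_lt.2 h1)
    rw [k2 x hx, hid _ h2, hJJ x (hS1 hx)]
  let U' : Set E3 := (ball c R \ closedBall c r') ∩ J.toFun ⁻¹' U
  have hsub : ball c R \ closedBall c r' ⊆ shellAt c r' R := fun x hx =>
    ⟨(not_le.1 hx.2).le, (mem_ball.1 hx.1).le⟩
  have hU' : IsOpen U' :=
    (J.cont.mono hsub).isOpen_inter_preimage (isOpen_ball.sdiff isClosed_closedBall) hU
  obtain ⟨D', B', hD', hAD', hD'U⟩ := cell_one hE (h := k) (a := J.toFun a) (A := J.toFun '' A)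
    (U := U') (conBall_closedBall_at c (hr'.trans hρ0)) hJAc.isClosed
    (fun x hx => ⟨(hJAd x hx).2.le, (hJAd x hx).2.ne⟩)
    (conBall_closedBall_at c (hr'.trans (hrr.trans hRr))) ⟨hJa2.le, hJa2.ne⟩
    (by
      rw [hcov]
      exact ContinuousOn.union_of_isClosed (continuousOn_id.congr k1)
        ((J.cont.comp hc1 hm1).congr k2) isClosed_closedBall (isClosed_shellAt _ _ _))
    (by
      rw [hcov]
      rintro x (hx | hx)
      · rw [k1 x hx]; exact closedBall_subset_closedBall (hrr.trans hRr).le hx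
      · rw [k2 x hx]; exact (J.mapsTo (hm1 hx)).2)
    (by
      rw [hcov]
      rintro x (hx | hx)
      · rw [k1 x hx]
        exact ⟨fun e => absurd (e ▸ hx) (not_le.2 hJa1), fun e => absurd hx (not_le.2 (hJAd x e).1)⟩
      · rw [k2 x hx, hJA x (hS1 hx), ← hfib _ (hZ _ (hJ1 hx))]
        exact ⟨fun e => J.injOn (hm1 hx) haS e, fun e => by rw [e]⟩)
    (by
      rw [hcov]
      rintro x ⟨hx | hx, hxA⟩ y ⟨hy | hy, hyA⟩ e
      · rwa [k1 x hx, k1 y hy] at e
      · rw [k1 x hx] at e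
        rw [← kfix y hy (e ▸ hx), e]
      · rw [k1 y hy] at e
        rw [← kfix x hx (e ▸ hy), e]
      · rw [k2 x hx, k2 y hy] at e
        have e1 := J.injOn (hm1 hx) (hm1 hy) e
        rw [hJA x (hS1 hx)] at hxA
        rw [hJA y (hS1 hy)] at hyA
        exact J.injOn (hS1 hx) (hS1 hy) (hinj ⟨hZ _ (hJ1 hx), hxA⟩ ⟨hZ _ (hJ1 hy), hyA⟩ e1))
    (by
      have hop := IsOpen.conicalSet hJAc.isClosed.isOpen_compl
      rw [hcov, union_sdiff_distrib]
      refine ConicalOn.union ?_ ?_ ?_ ?_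
      · exact (conicalOn_id ((locCone_closedBall_at c r').conicalSet.inter hop)).congr
          fun x hx => k1 x hx.1
      · have hset : ConicalSet (shellAt c r' ρ \ J.toFun '' A) :=
          (locCone_shellAt c hr'.ne' ρ).conicalSet.inter hop
        have h1 : ConicalOn (h ∘ J.toFun) (shellAt c r' ρ \ J.toFun '' A) :=
          hcon.comp (J.conical.mono hset fun x hx => hS1 hx.1)
            (fun x hx => ⟨hZ _ (hJ1 hx.1), fun e => hx.2 ((hJA x (hS1 hx.1)).2 e)⟩)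
            (J.cont.mono fun x hx => hS1 hx.1)
        exact (J.conical.comp h1 (hm1.mono_left sdiff_subset) (hc1.mono sdiff_subset)).congr
          fun x hx => k2 x hx.1
      · exact fun x hx hcl => ⟨closure_minimal sdiff_subset isClosed_closedBall hcl, hx.2⟩
      · exact fun x hx hcl => ⟨closure_minimal sdiff_subset (isClosed_shellAt _ _ _) hcl, hx.2⟩)
    (by
      have h1 := shellAt_mem_nhds hJa1 hJa2
      have h2 : ContinuousAt J.toFun (J.toFun a) := J.cont.continuousAt h1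
      rw [ContinuousAt, hJJ a haS] at h2
      filter_upwards [h2 hn, h1] with x hx hxS
      obtain ⟨y, hy, hyx⟩ := hx
      have hyZ : y ∈ shellAt c r R := ⟨not_lt.1 hy.2, (mem_ball.1 (hWR hy.1)).le⟩
      refine ⟨J.toFun y, (hJ2 hyZ).2, ?_⟩
      rw [k2 _ (hJ2 hyZ), hJJ y (hZS hyZ), hyx, hJJ x hxS])
    hU'
    (by
      rintro _ ⟨y, hy, rfl⟩
      have h1 := hJAd _ ⟨y, hy, rfl⟩
      refine ⟨⟨h1.2.trans (by linarith), not_le.2 h1.1⟩, ?_⟩
      show J.toFun (J.toFun y) ∈ U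
      rw [hJJ y (hZS (hAZ hy))]; exact hAU hy)
  have hD'S : D' ⊆ shellAt c r' R := fun x hx => hsub (hD'U hx).2.1
  refine ⟨_, _, hD'.image J hD'S, fun y hy => ⟨⟨_, (hAD' ⟨y, hy, rfl⟩).1, hJJ y (hZS (hAZ hy))⟩, ?_⟩,
    ?_⟩
  · rintro ⟨x, hx, rfl⟩
    refine (hAD' ⟨_, hy, rfl⟩).2 ?_
    rw [hJJ x (hD'S (hD'.1 hx))]; exact hx
  · rintro _ ⟨x, hx, rfl⟩
    exact (hD'U hx).2.2

end P073
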