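import Vale.Agent.P073Z.SCH3.Basic

/-!
# Ball filling: a PL inversion of a shell
-/

open Set Metric Topology Filter

namespace P073

/-- the closed shell -/
def shellAt {n : ℕ} (c : Fin n → ℝ) (r R : ℝ) : Set (Fin n → ℝ) :=
  {x | r ≤ dist x c ∧ dist x c ≤ R}

theorem locCone_shellAt {n : ℕ} (c : Fin n → ℝ) {r : ℝ} (hr : r ≠ 0) (R : ℝ) :
    LocCone (shellAt c r R) := by
  have : shellAt c r R = (ball c r)ᶜ ∩ closedBall c R := by
    ext x; simp [shellAt]
  rw [this]
  exact (locCone_ball_at c hr).compl.inter (locCone_closedBall_at c R)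

theorem isClosed_shellAt {n : ℕ} (c : Fin n → ℝ) (r R : ℝ) : IsClosed (shellAt c r R) :=
  (isClosed_le (g := fun x => dist x c) continuous_const (by fun_prop)).inter
    (isClosed_le (f := fun x => dist x c) (by fun_prop) continuous_const)

theorem shellAt_mem_nhds {n : ℕ} {c x : Fin n → ℝ} {r R : ℝ} (h1 : r < dist x c)
    (h2 : dist x c < R) : shellAt c r R ∈ 𝓝 x := by
  have hc : ContinuousAt (fun y => dist y c) x := by fun_prop
  filter_upwards [hc.eventually (lt_mem_nhds h1), hc.eventually (gt_mem_nhds h2)] with y a b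
  exact ⟨a.le, b.le⟩

theorem exists_shell_inversion (hP : PUNCT) {n : ℕ} (c : Fin n → ℝ) {r R : ℝ} (hr : 0 < r)
    (hrR : r < R) : ∃ J : ConHomeo (shellAt c r R) (shellAt c r R), J.invFun = J.toFun ∧
      ∀ x ∈ shellAt c r R, dist (J.toFun x) c = R + r - dist x c := by
  obtain ⟨P, hP⟩ := hP n
  have hR : 0 < R := hr.trans hrR
  have hX := (locCone_shellAt c hr.ne' R).conicalSet
  let u : (Fin n → ℝ) → (Fin n → ℝ) := fun x => R⁻¹ • (x - c)
  have hun : ∀ x, ‖u x‖ = R⁻¹ * dist x c := fun x => by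
    simp only [u]
    rw [norm_smul, dist_eq_norm, Real.norm_of_nonneg (inv_nonneg.2 hR.le)]
  have hum : MapsTo u (shellAt c r R) (closedBall 0 1 \ {0}) := by
    intro x hx
    refine ⟨?_, fun h0 => ?_⟩
    · rw [mem_closedBall_zero_iff, hun, inv_mul_le_iff₀ hR, mul_one]; exact hx.2
    · have h1 := hun x
      rw [mem_singleton_iff.1 h0, norm_zero] at h1
      have := mul_pos (inv_pos.2 hR) (hr.trans_le hx.1)
      linarith
  have huc : ContinuousOn u (shellAt c r R) := by fun_prop
  have hucon : ConicalOn u (shellAt c r R) :=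
    ((conicalOn_id hX).sub (conicalOn_const c hX)).const_smul _
  let v : (Fin n → ℝ) → (Fin n → ℝ) × ℝ := P.invFun ∘ u
  have hvm : MapsTo v (shellAt c r R) (sphere 0 1 ×ˢ Ioc 0 1) := P.mapsTo_inv.comp hum
  have hvc : ContinuousOn v (shellAt c r R) := P.cont_inv.comp huc hum
  have hvcon : ConicalOn v (shellAt c r R) := P.conical_inv.comp hucon hum huc
  have hv2 : ∀ x ∈ shellAt c r R, (v x).2 = R⁻¹ * dist x c := by
    intro x hx
    rw [← hun, ← (hP _ (hvm hx).1).2 _ (hvm hx).2]
    exact congrArg _ (P.right_inv (hum hx))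
  let w : (Fin n → ℝ) → (Fin n → ℝ) × ℝ := fun x => ((v x).1, 1 + R⁻¹ * r - (v x).2)
  have hRR : R⁻¹ * R = 1 := inv_mul_cancel₀ hR.ne'
  have hwm : MapsTo w (shellAt c r R) (sphere 0 1 ×ˢ Ioc 0 1) := by
    intro x hx
    refine ⟨(hvm hx).1, ?_, ?_⟩
    · show 0 < 1 + R⁻¹ * r - (v x).2
      have := mul_pos (inv_pos.2 hR) hr
      linarith [(hvm hx).2.2]
    · show 1 + R⁻¹ * r - (v x).2 ≤ 1
      rw [hv2 x hx]
      have := mul_le_mul_of_nonneg_left hx.1 (inv_pos.2 hR).le
      linarith
  have hwc : ContinuousOn w (shellAt c r R) :=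
    hvc.fst.prodMk (continuousOn_const.sub hvc.snd)
  have hwcon : ConicalOn w (shellAt c r R) :=
    (hvcon.linear_comp (LinearMap.fst ℝ _ _)).prodMk
      ((conicalOn_const _ hX).sub (hvcon.linear_comp (LinearMap.snd ℝ _ _)))
  let j : (Fin n → ℝ) → (Fin n → ℝ) := fun x => c + R • P.toFun (w x)
  have hjd : ∀ x ∈ shellAt c r R, dist (j x) c = R + r - dist x c := by
    intro x hx
    have h1 : ‖P.toFun (w x)‖ = 1 + R⁻¹ * r - (v x).2 := (hP _ (hwm hx).1).2 _ (hwm hx).2
    simp only [j]
    rw [dist_eq_norm, add_sub_cancel_left, norm_smul, Real.norm_of_nonneg hR.le, h1, hv2 x hx]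
    field_simp
  have hjm : MapsTo j (shellAt c r R) (shellAt c r R) := by
    intro x hx
    constructor
    · rw [hjd x hx]; linarith [hx.2]
    · rw [hjd x hx]; linarith [hx.1]
  have hjj : ∀ x ∈ shellAt c r R, j (j x) = x := by
    intro x hx
    have h1 : u (j x) = P.toFun (w x) := by
      simp only [u, j]
      rw [add_sub_cancel_left, smul_smul, hRR, one_smul]
    have h2 : v (j x) = w x := by
      show P.invFun (u (j x)) = _
      rw [h1, P.left_inv (hwm hx)]
    have h3 : w (j x) = v x := by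
      simp only [w]
      rw [h2]
      simp [w]
    show c + R • P.toFun (w (j x)) = x
    rw [h3]
    show c + R • P.toFun (P.invFun (u x)) = x
    rw [P.right_inv (hum hx)]
    simp only [u]
    rw [smul_smul, mul_inv_cancel₀ hR.ne', one_smul, add_sub_cancel]
  have hjc : ContinuousOn j (shellAt c r R) :=
    continuousOn_const.add ((P.cont.comp hwc hwm).const_smul R)
  exact ⟨
    { toFun := j
      invFun := j
      mapsTo := hjm
      mapsTo_inv := hjm
      left_inv := hjj
      right_inv := hjj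
      cont := hjc
      cont_inv := hjc
      conical := (conicalOn_const c hX).add ((P.conical.comp hwcon hwm hwc).const_smul R) },
    rfl, hjd⟩

end P073
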