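import Vale.Agent.P073Z.SCH3.Inv

/-!
# Ball filling: a map of the complement of a small cube that collapses the core
-/

open Set Metric Topology Filter

namespace P073

theorem exists_core_push (hS : SHRINK) {W O A : Set E3} (hW : IsCompact W) (hO : IsOpen O)
    (hOW : O ⊆ W) (hA : IsClosed A) (hAO : A ⊆ O)
    (F : ConHomeo (W \ A) (closedBall (0 : E3) 1 \ {0}))
    (hF : ∀ y ∈ W \ A, y ∈ O ↔ ‖F.toFun y‖ < 1) {f : E3 → E3} (hf : ContinuousOn f W)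
    (hfF : EqOn f F.toFun (W \ A)) (hfA : ∀ y ∈ A, f y = 0) (hne : A.Nonempty) :
    ∃ (c a : E3) (r r' : ℝ) (h : E3 → E3), 0 < r' ∧ r' < r ∧ Disjoint (closedBall c r) A ∧
      c ∈ W ∧ ContinuousOn h (ball c r)ᶜ ∧ ConicalOn h ((ball c r)ᶜ \ A) ∧
      InjOn h ((ball c r)ᶜ \ A) ∧ (∀ y ∈ (ball c r)ᶜ, h y = a ↔ y ∈ A) ∧
      (∀ y ∈ (ball c r)ᶜ, r' < dist (h y) c) ∧ (∀ y, y ∉ W → h y = y) ∧
      MapsTo h (W \ ball c r) W ∧ h '' (W \ ball c r) ∈ 𝓝 a := by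
  classical
  let C : Set E3 := closedBall (0 : E3) 1
  have hC : C = closedBall (0 : E3) 1 := rfl
  let p : E3 := fun _ => 1 / 2
  have hpn : ‖p‖ = 1 / 2 := by
    simp only [p]
    rw [pi_norm_const]; norm_num
  have hp0 : p ≠ 0 := fun h => by rw [h, norm_zero] at hpn; norm_num at hpn
  have hpC : p ∈ C \ {0} := ⟨by rw [hC, mem_closedBall_zero_iff, hpn]; norm_num, hp0⟩
  have hnhd : ∀ y : E3, ‖y‖ < 1 → y ≠ 0 → C \ {0} ∈ 𝓝 y := fun y h1 h2 =>
    inter_mem (mem_of_superset (isOpen_ball.mem_nhds (mem_ball_zero_iff.2 h1))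
      ball_subset_closedBall) (isOpen_compl_singleton.mem_nhds h2)
  have hfm : MapsTo f W C := by
    intro y hy
    by_cases hyA : y ∈ A
    · rw [hfA y hyA]; exact mem_closedBall_self zero_le_one
    · rw [hfF ⟨hy, hyA⟩]; exact (F.mapsTo ⟨hy, hyA⟩).1
  have hf0 : ∀ y ∈ W, f y = 0 ↔ y ∈ A := by
    intro y hy
    refine ⟨fun h => by_contra fun hyA => ?_, hfA y⟩
    rw [hfF ⟨hy, hyA⟩] at h
    exact (F.mapsTo ⟨hy, hyA⟩).2 h
  have hfi : ∀ u ∈ C \ {0}, f (F.invFun u) = u := fun u hu => by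
    rw [hfF (F.mapsTo_inv hu), F.right_inv hu]
  have hif : ∀ y ∈ W \ A, F.invFun (f y) = y := fun y hy => by
    rw [hfF hy, F.left_inv hy]
  set c := F.invFun p with hc
  have hcWA : c ∈ W \ A := F.mapsTo_inv hpC
  have hcO : c ∈ O := (hF c hcWA).2 (by rw [hc, F.right_inv hpC, hpn]; norm_num)
  obtain ⟨r, hr, hrO⟩ := nhds_basis_closedBall.mem_iff.1
    ((hO.inter hA.isOpen_compl).mem_nhds ⟨hcO, hcWA.2⟩)
  let V : Set E3 := {u | u ∈ C \ {0} ∧ F.invFun u ∈ ball c r}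
  have hV : V ∈ 𝓝 p := by
    have h1 := hnhd p (by rw [hpn]; norm_num) hp0
    exact inter_mem h1 ((F.cont_inv.continuousAt h1) (ball_mem_nhds c hr))
  have hVf : ∀ y ∈ W, f y ∈ V → y ∈ ball c r := by
    intro y hy hyV
    have hyA : y ∉ A := fun h => hyV.1.2 (hfA y h)
    rw [← hif y ⟨hy, hyA⟩]; exact hyV.2
  have hstd : ConBall 3 C (sphere 0 1) := conBall_closedBall_at 0 one_pos
  have hint : ∀ y : E3, y ∈ C \ sphere 0 1 ↔ ‖y‖ < 1 := fun y => by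
    rw [hC, closedBall_sdiff_sphere, mem_ball_zero_iff]
  obtain ⟨Φ, K', hK', hK'C, hid, hΦ0, hΦp⟩ := hS hstd (K := {0}) (q := p) isCompact_singleton
    (by simpa using (hint 0).2 (by simp)) ((hint p).2 (by rw [hpn]; norm_num)) hV
  have h0C : (0 : E3) ∈ C := mem_closedBall_self zero_le_one
  have hΦ0V : Φ.toFun 0 ∈ V := hΦ0 ⟨0, rfl, rfl⟩
  have hGid : ∀ y ∈ C \ K', Φ.invFun y = y := fun y hy => by
    conv_lhs => rw [← hid y hy]
    exact Φ.left_inv hy.1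
  have h0K : (0 : E3) ∈ K' := by_contra fun h => hΦ0V.1.2 (hid 0 ⟨h0C, h⟩)
  -- the moved map
  have hG : MapsTo (Φ.invFun ∘ f) (W \ ball c r) (C \ {0}) := by
    intro y hy
    refine ⟨Φ.mapsTo_inv (hfm hy.1), fun h0 => hy.2 (hVf y hy.1 ?_)⟩
    rw [← Φ.right_inv (hfm hy.1)]
    have : Φ.invFun (f y) = 0 := h0
    rw [this]; exact hΦ0V
  obtain ⟨a₀, ha₀⟩ := hne
  have hAr : ∀ y ∈ A, y ∈ W \ ball c r := fun y hy =>
    ⟨hOW (hAO hy), fun h => (hrO (ball_subset_closedBall h)).2 hy⟩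
  have hG0 : Φ.invFun 0 ∈ C \ {0} := by
    have := hG (hAr a₀ ha₀)
    rwa [Function.comp_apply, hfA a₀ ha₀] at this
  have hG0n : ‖Φ.invFun 0‖ < 1 := by
    rw [← hint]
    refine ⟨hG0.1, fun hs => hG0.2 ?_⟩
    have h1 := hid _ ⟨hG0.1, fun h => (hK'C h).2 hs⟩
    rw [Φ.right_inv h0C] at h1
    exact h1.symm
  set a := F.invFun (Φ.invFun 0) with ha
  have haWA : a ∈ W \ A := F.mapsTo_inv hG0
  have haO : a ∈ O := (hF a haWA).2 (by rw [ha, F.right_inv hG0]; exact hG0n)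
  let h : E3 → E3 := fun y => if y ∈ W then F.invFun (Φ.invFun (f y)) else y
  have hW1 : ∀ y ∈ W, h y = F.invFun (Φ.invFun (f y)) := fun y hy => if_pos hy
  have hW2 : ∀ y, y ∉ W → h y = y := fun y hy => if_neg hy
  have hmW : MapsTo h (W \ ball c r) (W \ A) := fun y hy => by
    rw [hW1 y hy.1]; exact F.mapsTo_inv (hG hy)
  have hfh : ∀ y ∈ W \ ball c r, Φ.toFun (f (h y)) = f y := fun y hy => by
    rw [hW1 y hy.1, hfi (Φ.invFun (f y)) (hG hy), Φ.right_inv (hfm hy.1)]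
  -- the support
  let K₂ : Set E3 := W ∩ f ⁻¹' K'
  have hK₂ : IsClosed K₂ := hf.preimage_isClosed_of_isClosed hW.isClosed hK'.isClosed
  have hK₂O : K₂ ⊆ O := by
    intro y hy
    by_cases hyA : y ∈ A
    · exact hAO hyA
    · rw [hF y ⟨hy.1, hyA⟩, ← hfF ⟨hy.1, hyA⟩, ← hint]
      exact hK'C hy.2
  have hoff : ∀ y, y ∉ K₂ → h y = y := by
    intro y hy
    by_cases hyW : y ∈ W
    · have h1 : f y ∉ K' := fun h => hy ⟨hyW, h⟩
      rw [hW1 y hyW, hGid _ ⟨hfm hyW, h1⟩]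
      exact hif y ⟨hyW, fun hA => h1 (by rw [hfA y hA]; exact h0K)⟩
    · exact hW2 y hyW
  have hoff' : ∀ y, y ∉ O → ∀ᶠ z in 𝓝 y, h z = z := fun y hy => by
    filter_upwards [hK₂.isOpen_compl.mem_nhds fun h => hy (hK₂O h)] with z hz using hoff z hz
  -- the small cube
  obtain ⟨r₁, hr₁, hr₁V⟩ : ∃ r₁ > 0, closedBall c r₁ ⊆ {y | Φ.toFun (f y) ∈ V} := by
    have h1 : ContinuousAt f c := hf.continuousAt (mem_of_superset (hO.mem_nhds hcO) hOW)
    have h2 : f c = p := hfi p hpC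
    have h3 : ContinuousAt Φ.toFun (f c) := by
      rw [h2]
      exact Φ.cont.continuousAt
        (mem_of_superset (hnhd p (by rw [hpn]; norm_num) hp0) sdiff_subset)
    have h4 : V ∈ 𝓝 (Φ.toFun (f c)) := by rw [h2, hΦp]; exact hV
    exact nhds_basis_closedBall.mem_iff.1 ((h3.comp h1) h4)
  have hcomp : ContinuousOn (Φ.invFun ∘ f) (W \ ball c r) :=
    Φ.cont_inv.comp (hf.mono sdiff_subset) (hfm.mono_left sdiff_subset)
  have hcW : ContinuousOn h (W \ ball c r) :=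
    (F.cont_inv.comp hcomp hG).congr fun y hy => hW1 y hy.1
  have hbc := (locCone_ball_at c hr.ne').compl.conicalSet
  refine ⟨c, a, r, min r₁ (r / 2), h, lt_min hr₁ (half_pos hr),
    (min_le_right _ _).trans_lt (half_lt_self hr), ?_, hcWA.1, ?_, ?_, ?_, ?_, ?_, hW2,
    hmW.mono_right sdiff_subset, ?_⟩
  · exact disjoint_left.2 fun y hy => (hrO hy).2
  · intro y hy
    by_cases hyO : y ∈ O
    · have h1 : W ∈ 𝓝 y := mem_of_superset (hO.mem_nhds hyO) hOW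
      refine (continuousWithinAt_inter h1).1 ((hcW y ⟨hOW hyO, hy⟩).mono ?_)
      exact fun z hz => ⟨hz.2, hz.1⟩
    · exact (continuousAt_id.congr ((hoff' y hyO).mono fun z hz => hz.symm)).continuousWithinAt
  · intro y hy
    by_cases hyO : y ∈ O
    · have hset : ConicalSet ((W \ A) ∩ (ball c r)ᶜ) := F.conicalSet_left.inter hbc
      have hsub : (W \ A) ∩ (ball c r)ᶜ ⊆ W \ ball c r := fun z hz => ⟨hz.1.1, hz.2⟩
      have h1 : ConicalOn f ((W \ A) ∩ (ball c r)ᶜ) :=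
        (F.conical.mono hset inter_subset_left).congr (hfF.mono inter_subset_left)
      have h2 : ConicalOn (Φ.invFun ∘ f) ((W \ A) ∩ (ball c r)ᶜ) :=
        Φ.conical_inv.comp h1 (fun z hz => hfm hz.1.1) (hf.mono fun z hz => hz.1.1)
      have h3 : ConicalOn h ((W \ A) ∩ (ball c r)ᶜ) :=
        (F.conical_inv.comp h2 (hG.mono_left hsub) (hcomp.mono hsub)).congr
          fun z hz => hW1 z hz.1.1
      refine (h3 y ⟨⟨hOW hyO, hy.2⟩, hy.1⟩).congr_nhds ?_ (Eventually.of_forall fun _ _ => rfl) rfl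
      filter_upwards [hO.mem_nhds hyO] with z hz
      exact ⟨fun h => ⟨⟨hOW hz, h.2⟩, h.1⟩, fun h => ⟨h.2, h.1.2⟩⟩
    · have hset : ConicalSet ((ball c r)ᶜ \ A) := hbc.inter (IsOpen.conicalSet hA.isOpen_compl)
      exact (conicalOn_id hset y hy).congr_nhds (Eventually.of_forall fun _ => Iff.rfl)
        ((hoff' y hyO).mono fun z hz _ => hz) (hoff' y hyO).self_of_nhds
  · intro x hx y hy hxy
    by_cases hxW : x ∈ W <;> by_cases hyW : y ∈ W
    · have h1 : f x = f y := by rw [← hfh x ⟨hxW, hx.1⟩, hxy, hfh y ⟨hyW, hy.1⟩]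
      rw [← hif x ⟨hxW, hx.2⟩, h1, hif y ⟨hyW, hy.2⟩]
    · rw [hW2 y hyW] at hxy
      exact absurd (hxy ▸ (hmW ⟨hxW, hx.1⟩).1) hyW
    · rw [hW2 x hxW] at hxy
      exact absurd (hxy ▸ (hmW ⟨hyW, hy.1⟩).1) hxW
    · rwa [hW2 x hxW, hW2 y hyW] at hxy
  · intro y hy
    by_cases hyW : y ∈ W
    · constructor
      · intro hya
        rw [← hf0 y hyW, ← hfh y ⟨hyW, hy⟩, hya, ha, hfi _ hG0, Φ.right_inv h0C]
      · intro hyA
        rw [hW1 y hyW, hfA y hyA]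
    · rw [hW2 y hyW]
      exact ⟨fun h => absurd (h ▸ haWA.1) hyW, fun h => absurd (hOW (hAO h)) hyW⟩
  · intro y hy
    by_contra hcon
    push Not at hcon
    by_cases hyW : y ∈ W
    · have h1 : Φ.toFun (f (h y)) ∈ V := hr₁V (hcon.trans (min_le_left _ _))
      rw [hfh y ⟨hyW, hy⟩] at h1
      exact hy (hVf y hyW h1)
    · rw [hW2 y hyW] at hcon
      exact hy (hcon.trans_lt ((min_le_right _ _).trans_lt (half_lt_self hr)))
  · have hWa : W ∈ 𝓝 a := mem_of_superset (hO.mem_nhds haO) hOW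
    have hfa : f a = Φ.invFun 0 := hfi _ hG0
    have h1 : ContinuousAt (Φ.toFun ∘ f) a := by
      refine ContinuousAt.comp ?_ (hf.continuousAt hWa)
      rw [hfa]
      exact Φ.cont.continuousAt (mem_of_superset (hnhd _ hG0n hG0.2) sdiff_subset)
    have hsub : closedBall c r ⊆ W := fun z hz => hOW (hrO hz).1
    have h2 : IsClosed (f '' closedBall c r) :=
      ((isCompact_closedBall c r).image_of_continuousOn (hf.mono hsub)).isClosed
    have h3 : (f '' closedBall c r)ᶜ ∈ 𝓝 ((Φ.toFun ∘ f) a) := by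
      refine h2.isOpen_compl.mem_nhds ?_
      rw [Function.comp_apply, hfa, Φ.right_inv h0C]
      rintro ⟨z, hz, hz0⟩
      exact (hrO hz).2 ((hf0 z (hsub hz)).1 hz0)
    filter_upwards [h1 h3, hWa, hA.isOpen_compl.mem_nhds haWA.2] with y hy1 hy2 hy3
    have hyC : Φ.toFun (f y) ∈ C := Φ.mapsTo (hfm hy2)
    have hback : ∀ x ∈ W, f x = Φ.toFun (f y) → h x = y := fun x hx e => by
      rw [hW1 x hx, e, Φ.left_inv (hfm hy2), hif y ⟨hy2, hy3⟩]
    by_cases h0 : Φ.toFun (f y) = 0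
    · exact ⟨a₀, hAr a₀ ha₀, hback a₀ (hAr a₀ ha₀).1 (by rw [h0, hfA a₀ ha₀])⟩
    · have hx := F.mapsTo_inv (show Φ.toFun (f y) ∈ C \ {0} from ⟨hyC, h0⟩)
      have hx' := hfi _ (show Φ.toFun (f y) ∈ C \ {0} from ⟨hyC, h0⟩)
      exact ⟨_, ⟨hx.1, fun hb => hy1 ⟨_, ball_subset_closedBall hb, hx'⟩⟩, hback _ hx.1 hx'⟩

end P073
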